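import Vale.Agent.N238S.Low

/-!
# N238S / Far : the lower bound for maps that expand only the large distances
-/

set_option autoImplicit false

namespace Vale.Agent.N238S

open Finset Filter Vale.Agent.P238 Vale.Agent.P238.Full Vale.Agent.N238

/-- Kernels that satisfy the Poincare inequalities on finite abelian groups. -/
def Poin {X : Type} (φ : X → X → ℝ) : Prop :=
  ∀ (G : Type) [AddCommGroup G] [Fintype G] (A : Type) [Fintype A] (v : G) (g : A → G)
    (w : A → ℝ), (∀ χ : AddChar G ℂ, χ v ≠ 1 → 1 ≤ ∑ a, w a * ‖1 - χ (g a)‖ ^ 2) →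
    (∀ a, 0 ≤ w a) → ∀ H : G → X,
      ∑ x, φ (H x) (H (x + v)) ≤ 4 * ∑ a, w a * ∑ x, φ (H x) (H (x + g a))

theorem poin_l1 {X : Type} (f : X → lp (fun _ : ℕ => ℝ) 1) : Poin fun x y => ‖f x - f y‖ :=
  fun _ _ _ _ _ v g w hK hw H => poincare_l1 v g w hK hw fun x => f (H x)

theorem poin_hilbert {X E : Type} [NormedAddCommGroup E] [InnerProductSpace ℝ E] (F : X → E) :
    Poin fun x y => ‖F x - F y‖ ^ 2 := by
  intro G _ _ A _ v g w hK hw H
  let V : Submodule ℝ E := Submodule.span ℝ (Set.range fun x => F (H x))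
  have : FiniteDimensional ℝ V := FiniteDimensional.span_of_finite ℝ (Set.finite_range _)
  let F' : G → V := fun x => ⟨F (H x), Submodule.subset_span ⟨x, rfl⟩⟩
  let b := stdOrthonormalBasis ℝ V
  have h1 : ∀ x y, ‖F (H x) - F (H y)‖ ^ 2 = ∑ i, (b.repr (F' x) i - b.repr (F' y) i) ^ 2 := by
    intro x y
    have h2 : ‖F (H x) - F (H y)‖ = ‖b.repr (F' x - F' y)‖ := by
      rw [LinearIsometryEquiv.norm_map]
      rfl
    rw [h2, EuclideanSpace.norm_sq_eq, map_sub]
    refine Finset.sum_congr rfl fun i _ => ?_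
    rw [PiLp.sub_apply, Real.norm_eq_abs, sq_abs]
  simp only [h1]
  rw [Finset.sum_comm]
  refine (Finset.sum_le_sum fun i _ => poincare v g w hK hw fun x => b.repr (F' x) i).trans
    (le_of_eq ?_)
  rw [← Finset.mul_sum, Finset.sum_comm]
  congr 1
  refine Finset.sum_congr rfl fun a _ => ?_
  rw [← Finset.mul_sum, Finset.sum_comm]

theorem far_of_data {N q d n : ℕ} {κ δ τ L : ℝ} (hN : 1 ≤ N) (hκ : 0 < κ) (hδ : 0 < δ)
    (D : Data 2 N κ δ q) (hq : q ≤ 2 ^ d) (hn : (2 * d + 3) * N ≤ n) (hτ : 2 * τ ≤ δ * N)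
    {φ : (Fin n → Bool) → (Fin n → Bool) → ℝ} (hφ : Poin φ)
    (hFL : ∀ x y, φ x y ≤ L * binED n x y)
    (hFM : ∀ x y, τ ≤ binED n x y → binED n x y ≤ φ x y) :
    δ / (8 * (2 * d + 3 : ℕ) * κ) ≤ L := by
  set W : D.G → List ℕ := fun x => win (D.X x) 0 N with hWdef
  have hWlen : ∀ x, (W x).length = N := fun x => win_length _ _ _
  have hWlt : ∀ x, ∀ b ∈ W x, b < 2 ^ d := fun x b hb =>
    lt_of_lt_of_le (win_lt (D.hX x) 0 N b hb) hq
  have hn' : ∀ x, (2 * d + 3) * (W x).length ≤ n := fun x => by rw [hWlen]; exact hn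
  set H : D.G → Fin n → Bool := fun x => encFn d n (W x) with hHdef
  have hP := hφ D.G D.A D.v D.g D.w D.hK D.hw H
  have hcard : (0 : ℝ) < (Fintype.card D.G : ℝ) := by
    have : 0 < Fintype.card D.G := Fintype.card_pos_iff.2 ⟨0⟩
    exact_mod_cast this
  have hN' : (0 : ℝ) < N := by exact_mod_cast hN
  have hfar : ∀ x, δ * N ≤ 2 * binED n (H x) (H (x + D.v)) := by
    intro x
    have e1 := D.hF x 1 (by decide) 0 N (by omega)
    rw [one_zsmul] at e1
    exact e1.trans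
      (binED_encFn_ge (n := n) (hWlt x) (hWlt (x + D.v)) (by rw [hWlen, hWlen]) (hn' x))
  have hfar2 : ∀ x, binED n (H x) (H (x + D.v)) ≤ φ (H x) (H (x + D.v)) := fun x =>
    hFM _ _ (by linarith [hfar x])
  have hL : 0 ≤ L := by
    have e1 := hfar 0
    have e2 := (hfar2 0).trans (hFL _ _)
    have e3 : 0 < δ * N := by positivity
    by_contra hcon
    push Not at hcon
    nlinarith
  have h1 : (Fintype.card D.G : ℝ) * (δ * N) ≤ 2 * ∑ x, φ (H x) (H (x + D.v)) := by
    rw [Finset.mul_sum]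
    have : (Fintype.card D.G : ℝ) * (δ * N) = ∑ _x : D.G, δ * N := by
      rw [Finset.sum_const, Finset.card_univ, nsmul_eq_mul]
    rw [this]
    exact Finset.sum_le_sum fun x _ => by linarith [hfar x, hfar2 x]
  have h2 : ∀ a, ∑ x, φ (H x) (H (x + D.g a)) ≤
      (Fintype.card D.G : ℝ) * (L * ((2 * d + 3 : ℕ) * D.d a)) := by
    intro a
    have : (Fintype.card D.G : ℝ) * (L * ((2 * d + 3 : ℕ) * D.d a)) =
        ∑ _x : D.G, L * ((2 * d + 3 : ℕ) * D.d a) := by
      rw [Finset.sum_const, Finset.card_univ, nsmul_eq_mul]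
    rw [this]
    apply Finset.sum_le_sum
    intro x _
    have e2 := binED_encFn_le (n := n) (d := d) (x := W x) (y := W (x + D.g a))
      (by rw [hWlen, hWlen]) (hn' x)
    exact (hFL _ _).trans (mul_le_mul_of_nonneg_left
      (e2.trans (mul_le_mul_of_nonneg_left (D.hC a x) (Nat.cast_nonneg _))) hL)
  have h3 : ∑ a, D.w a * ∑ x, φ (H x) (H (x + D.g a)) ≤
      (Fintype.card D.G : ℝ) * (L * ((2 * d + 3 : ℕ) * (κ * N))) := by
    calc ∑ a, D.w a * ∑ x, φ (H x) (H (x + D.g a))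
        ≤ ∑ a, D.w a * ((Fintype.card D.G : ℝ) * (L * ((2 * d + 3 : ℕ) * D.d a))) :=
          Finset.sum_le_sum fun a _ => mul_le_mul_of_nonneg_left (h2 a) (D.hw a)
      _ = (Fintype.card D.G : ℝ) * (L * ((2 * d + 3 : ℕ) * ∑ a, D.w a * D.d a)) := by
          rw [Finset.mul_sum, Finset.mul_sum, Finset.mul_sum]
          apply Finset.sum_congr rfl
          intro a _
          ring
      _ ≤ (Fintype.card D.G : ℝ) * (L * ((2 * d + 3 : ℕ) * (κ * N))) := by
          apply mul_le_mul_of_nonneg_left _ hcard.le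
          apply mul_le_mul_of_nonneg_left _ hL
          exact mul_le_mul_of_nonneg_left D.hD (Nat.cast_nonneg _)
  have h5 : δ ≤ L * (8 * (2 * d + 3 : ℕ) * κ) := by
    have h6 : (Fintype.card D.G : ℝ) * N * δ ≤
        (Fintype.card D.G : ℝ) * N * (L * (8 * (2 * d + 3 : ℕ) * κ)) := by
      linarith only [h1, hP, h3]
    exact le_of_mul_le_mul_left h6 (by positivity)
  rw [div_le_iff₀ (by positivity)]
  exact h5

/-- The explicit lower bound. -/
theorem far_explicit {L w n : ℕ} (hL : 20 ≤ L) (hw : 2 ≤ w) (hwL : 4 * w ≤ L)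
    (hB : Nat.nth Nat.Prime (24 * L) ≤ L ^ 2)
    (hn1 : L ^ 4 * ((14 * L ^ (4 * w + 1)) ^ L * w ^ ((L + 1).choose 2)) ≤ n)
    (hn2 : n < w ^ ((2 * L + 1).choose 2)) {τ Λ : ℝ} (hτ0 : 0 ≤ τ)
    (hτ : τ * (4 * (L : ℝ) ^ 4 * 2 ^ (2 * L)) ≤ n)
    {φ : (Fin n → Bool) → (Fin n → Bool) → ℝ} (hφ : Poin φ)
    (hFL : ∀ x y, φ x y ≤ Λ * binED n x y)
    (hFM : ∀ x y, τ ≤ binED n x y → binED n x y ≤ φ x y) :
    ((w : ℝ) / 2) ^ L / (L : ℝ) ^ 6 ≤ Λ := by
  obtain ⟨i, M, q, d, hi1, hi2, hq, hd4, hM1, hM2, ⟨D⟩⟩ :=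
    data_fit (by omega) (by omega) hwL hB hn1 hn2
  have hwR : (2 : ℝ) ≤ w := by exact_mod_cast hw
  have hLR : (20 : ℝ) ≤ L := by exact_mod_cast hL
  have hL0 : 0 < L := by omega
  have hw0 : 0 < w := by omega
  have hM0 : 1 ≤ M := by
    have h1 : 0 < L ^ 4 * ((14 * L ^ (4 * w + 1)) ^ L * w ^ ((L + 1).choose 2)) := by positivity
    rcases Nat.eq_zero_or_pos M with h | h
    · rw [h] at hM2
      omega
    · exact h
  have h1 := far_of_data (d := d) (n := n) (τ := τ) hM0 (by positivity) (by positivity) D hq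
    ((Nat.mul_le_mul_right _ hd4).trans hM1) (by
      have e1 : (n : ℝ) ≤ 2 * ((L : ℝ) ^ 4 * M) := by exact_mod_cast hM2
      have e2 : (2 : ℝ) ^ i ≤ 2 ^ (2 * L) := pow_le_pow_right₀ (by norm_num) hi2
      have e3 : τ * (4 * (L : ℝ) ^ 4 * 2 ^ i) ≤ τ * (4 * (L : ℝ) ^ 4 * 2 ^ (2 * L)) :=
        mul_le_mul_of_nonneg_left (mul_le_mul_of_nonneg_left e2 (by positivity)) hτ0
      have e4 : (2 * (L : ℝ) ^ 4) * (2 * τ * 2 ^ i) ≤ (2 * (L : ℝ) ^ 4) * M := by linarith
      have e5 := le_of_mul_le_mul_left e4 (by positivity)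
      rw [one_div, inv_pow, inv_mul_eq_div, le_div_iff₀ (by positivity)]
      exact e5) hφ hFL hFM
  refine le_trans ?_ h1
  have e1 : (1 / 2 : ℝ) ^ i / (8 * ((2 * d + 3 : ℕ) : ℝ) * (((i : ℝ) + 1) / (w : ℝ) ^ i)) =
      ((w : ℝ) / 2) ^ i / (8 * ((i : ℝ) + 1) * ((2 * d + 3 : ℕ) : ℝ)) := by
    rw [div_pow, div_pow, one_pow]
    field_simp
  rw [e1]
  refine div_le_div₀ (by positivity) (pow_le_pow_right₀ (by linarith) hi1) (by positivity) ?_
  have h2 : ((2 * d + 3 : ℕ) : ℝ) ≤ (L : ℝ) ^ 4 := by exact_mod_cast hd4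
  have h4 : (i : ℝ) ≤ 2 * L := by exact_mod_cast hi2
  have h3 : 8 * ((i : ℝ) + 1) ≤ (L : ℝ) ^ 2 := by nlinarith
  calc 8 * ((i : ℝ) + 1) * ((2 * d + 3 : ℕ) : ℝ) ≤ (L : ℝ) ^ 2 * (L : ℝ) ^ 4 :=
        mul_le_mul h3 h2 (by positivity) (by positivity)
    _ = (L : ℝ) ^ 6 := by ring

theorem nth_prime_sq : ∀ᶠ L : ℕ in atTop, Nat.nth Nat.Prime (24 * L) ≤ L ^ 2 := by
  have h0 : Tendsto (fun L : ℕ => 2 * L) atTop atTop :=
    tendsto_id.const_mul_atTop' (by norm_num)
  filter_upwards [h0.eventually (nth_prime_le (η := 1 / 2) (by norm_num)),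
    eventually_ge_atTop 8] with L h hL
  have hLR : (8 : ℝ) ≤ L := by exact_mod_cast hL
  rw [show 12 * (2 * L) = 24 * L by ring] at h
  have h1 : ((2 * L : ℕ) : ℝ) ^ (1 + 1 / 2 : ℝ) ≤ (L : ℝ) ^ 2 := by
    push_cast
    rw [Real.rpow_add (by linarith), Real.rpow_one, ← Real.sqrt_eq_rpow]
    have h2 : Real.sqrt (2 * L) ≤ L / 2 := Real.sqrt_le_iff.2 ⟨by linarith, by nlinarith⟩
    nlinarith
  exact_mod_cast h.trans h1

theorem far_levels {η : ℝ} (hη : 0 < η) (hη1 : η ≤ 1) : ∀ᶠ L : ℕ in atTop, ∀ n : ℕ, 1 ≤ n →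
    (1 + η) * (L : ℝ) ^ 2 * Real.log L ≤ 2 * Real.log n →
    Real.log n ≤ (L : ℝ) ^ 2 * Real.log L →
    ∀ (φ : (Fin n → Bool) → (Fin n → Bool) → ℝ) (Λ : ℝ), Poin φ →
      (∀ x y, φ x y ≤ Λ * binED n x y) →
      (∀ x y, n * Real.exp (-(η * (L * Real.log L))) ≤ binED n x y → binED n x y ≤ φ x y) →
      Real.exp ((1 - η) * (L * Real.log L)) ≤ Λ := by
  obtain ⟨m, hm⟩ := exists_nat_ge (16 / η)
  have hm4 : (16 : ℝ) ≤ m := by
    refine le_trans ?_ hm
    rw [le_div_iff₀ hη]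
    linarith
  have hm0 : (0 : ℝ) < m := by linarith
  have hmN : 16 ≤ m := by exact_mod_cast hm4
  have hmη : 16 ≤ m * η := by rwa [div_le_iff₀ hη] at hm
  filter_upwards [nth_prime_sq, eventually_ge_atTop 20,
    eventually_ge_atTop (2 * m), tendsto_natCast_atTop_atTop.eventually_ge_atTop (40 / η),
    log_nat_atTop.eventually_ge_atTop (4 * Real.log (4 * m) / η),
    log_nat_atTop.eventually_ge_atTop (7 / η), log_nat_atTop.eventually_ge_atTop 1]
    with L hB hL hLm hLη hlm hl7 hl1 n hn1 hn hn' φ Λ hφ hFL hFM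
  have hLR : (20 : ℝ) ≤ L := by exact_mod_cast hL
  have hL0 : (0 : ℝ) < L := by linarith
  have hn0 : (0 : ℝ) < n := by exact_mod_cast hn1
  set l := Real.log L with hl
  set w := L / m with hw
  have hw2 : 2 ≤ w := (Nat.le_div_iff_mul_le (by omega)).2 hLm
  have hwm : w * m ≤ L := Nat.div_mul_le_self _ _
  have hwL : 4 * w ≤ L := le_trans (by nlinarith) hwm
  have hwmR : (w : ℝ) * m ≤ L := by exact_mod_cast hwm
  have hw2R : (2 : ℝ) ≤ w := by exact_mod_cast hw2
  have hwge : (L : ℝ) / (4 * m) ≤ w / 2 := by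
    have h1 : L < m * (w + 1) := Nat.lt_mul_div_succ L (by omega)
    have h2 : (L : ℝ) ≤ m * (w + 1) := by exact_mod_cast h1.le
    rw [div_le_iff₀ (by positivity)]
    nlinarith
  have hLη' : 40 ≤ η * L := by
    rw [div_le_iff₀ hη] at hLη
    linarith
  have hl7' : 7 ≤ η * l := by
    rw [div_le_iff₀ hη] at hl7
    linarith
  have hlw1 : l - Real.log (4 * m) ≤ Real.log ((w : ℝ) / 2) := by
    rw [hl, ← Real.log_div hL0.ne' (by positivity)]
    exact Real.log_le_log (by positivity) hwge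
  have hlm' : Real.log (4 * m) ≤ η / 4 * l := by
    rw [div_le_iff₀ hη] at hlm
    have h1 : 0 ≤ Real.log (4 * m) := Real.log_nonneg (by linarith)
    have h2 : 4 * Real.log (4 * m) ≤ l * η := hlm
    linarith
  have hlw2 : Real.log ((w : ℝ) / 2) ≤ Real.log w := Real.log_le_log (by positivity) (by linarith)
  have hlw3 : Real.log w ≤ l := Real.log_le_log (by positivity) (by nlinarith)
  have hηl : η * l ≤ l := mul_le_of_le_one_left (by linarith) hη1
  have hLl : 0 ≤ (L : ℝ) * l := by positivity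
  have hlen : L ^ 4 * ((14 * L ^ (4 * w + 1)) ^ L * w ^ ((L + 1).choose 2)) ≤ n := by
    have h1 : (L : ℝ) ^ 4 * ((14 * (L : ℝ) ^ (4 * w + 1)) ^ L * (w : ℝ) ^ ((L + 1).choose 2)) ≤
        n := by
      rw [← Real.log_le_log_iff (by positivity) hn0, Real.log_mul (by positivity) (by positivity),
        Real.log_mul (by positivity) (by positivity), Real.log_pow, Real.log_pow, Real.log_pow,
        Real.log_mul (by positivity) (by positivity), Real.log_pow, ← hl, Nat.cast_choose_two]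
      push_cast
      have a1 : Real.log 14 ≤ 3 := (Real.log_le_log (by norm_num) (by norm_num)).trans log_twenty
      have a2 : ((L : ℝ) + 1) * (L + 1 - 1) / 2 * Real.log w ≤ (L + 1) * (L + 1 - 1) / 2 * l :=
        mul_le_mul_of_nonneg_left hlw3 (by rw [add_sub_cancel_right]; positivity)
      have a3 : 16 * (w : ℝ) ≤ η * L := by
        have := mul_le_mul_of_nonneg_left hmη (show (0 : ℝ) ≤ w by linarith)
        have := mul_le_mul_of_nonneg_left hwmR hη.le
        linarith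
      have a4 := mul_le_mul_of_nonneg_right a3 hLl
      have a5 := mul_le_mul_of_nonneg_right hLη' hLl
      have a6 : (L : ℝ) * Real.log 14 ≤ L * (3 * l) :=
        mul_le_mul_of_nonneg_left (by linarith) hL0.le
      have a7 : 20 * l ≤ L * l := mul_le_mul_of_nonneg_right hLR (by linarith)
      linarith only [a2, a4, a5, a6, a7, hn, hLl]
    exact_mod_cast h1
  have hlen2 : n < w ^ ((2 * L + 1).choose 2) := by
    have h1 : (n : ℝ) < (w : ℝ) ^ ((2 * L + 1).choose 2) := by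
      rw [← Real.log_lt_log_iff hn0 (by positivity), Real.log_pow, Nat.cast_choose_two]
      push_cast
      have a1 : 3 / 4 * l ≤ Real.log w := by linarith
      have a2 : (2 * (L : ℝ) + 1) * (2 * L + 1 - 1) / 2 * (3 / 4 * l) ≤
          (2 * L + 1) * (2 * L + 1 - 1) / 2 * Real.log w :=
        mul_le_mul_of_nonneg_left a1 (by rw [add_sub_cancel_right]; positivity)
      have a3 : 0 < (L : ℝ) ^ 2 * l := by positivity
      linarith only [a2, a3, hn', hLl]
    exact_mod_cast h1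
  refine le_trans ?_ (far_explicit hL hw2 hwL hB hlen hlen2 (by positivity) ?_ hφ hFL hFM)
  · rw [← Real.le_log_iff_exp_le (by positivity), Real.log_div (by positivity) (by positivity),
      Real.log_pow, Real.log_pow, ← hl]
    have h3 : (L : ℝ) * (l - η / 4 * l) ≤ L * Real.log ((w : ℝ) / 2) :=
      mul_le_mul_of_nonneg_left (by linarith) hL0.le
    have h4 : 40 * l ≤ η * L * l := mul_le_mul_of_nonneg_right hLη' (by linarith)
    push_cast
    linarith only [h3, h4, hl1]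
  · rw [mul_assoc]
    refine mul_le_of_le_one_right hn0.le ?_
    rw [Real.exp_neg, inv_mul_le_iff₀ (Real.exp_pos _), mul_one,
      ← Real.log_le_iff_le_exp (by positivity), Real.log_mul (by positivity) (by positivity),
      Real.log_mul (by positivity) (by positivity), Real.log_pow, Real.log_pow, ← hl,
      show (4 : ℝ) = 2 ^ 2 by norm_num, Real.log_pow]
    have a1 := Real.log_two_lt_d9
    have a2 : l ≤ L := (Real.log_le_sub_one_of_pos hL0).trans (by linarith)
    have a3 := mul_le_mul_of_nonneg_left hl7' hL0.le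
    have a4 : (L : ℝ) * Real.log 2 ≤ L * 1 := mul_le_mul_of_nonneg_left (by linarith) hL0.le
    push_cast
    linarith only [a1, a2, a3, a4, hLR]

/-- The lower bound with constant `1 - ε` for maps that expand the large distances only. -/
theorem lowerFar {ε : ℝ} (hε : 0 < ε) : ∀ᶠ n : ℕ in atTop,
    ∀ (φ : (Fin n → Bool) → (Fin n → Bool) → ℝ) (Λ : ℝ), Poin φ →
      (∀ x y, φ x y ≤ Λ * binED n x y) →
      (∀ x y, n * Real.exp (-(ε * Real.sqrt (Real.log n * Real.log (Real.log n)))) ≤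
        binED n x y → binED n x y ≤ φ x y) →
      Real.exp ((1 - ε) * Real.sqrt (Real.log n * Real.log (Real.log n))) ≤ Λ := by
  set η := min (ε / 4) (1 / 10) with hηdef
  have hη : 0 < η := lt_min (by positivity) (by norm_num)
  have hη1 : η ≤ 1 / 10 := min_le_right _ _
  have hη2 : η ≤ ε / 4 := min_le_left _ _
  obtain ⟨L0, hL0⟩ := eventually_atTop.1 ((far_levels hη (by linarith)).and
    (log_nat_atTop.eventually_ge_atTop 2))
  have h2y : Tendsto (fun n : ℕ => 2 * Real.log n) atTop atTop :=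
    log_nat_atTop.const_mul_atTop (by norm_num)
  filter_upwards [h2y.eventually (low_real hη (by linarith) L0), eventually_ge_atTop 1,
    log_nat_atTop.eventually_ge_atTop 1] with n h hn hy1 φ Λ hφ hFL hFM
  obtain ⟨L, hL, h1, h2⟩ := h
  obtain ⟨hmain, hl2⟩ := hL0 L hL
  set y := Real.log n with hy
  set l := Real.log L with hl
  set u := Real.log y with hu
  set s := Real.sqrt (y * u) with hs
  have hu0 : 0 ≤ u := Real.log_nonneg hy1
  have hs0 : 0 ≤ s := Real.sqrt_nonneg _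
  have hs2 : s ^ 2 = y * u := Real.sq_sqrt (by positivity)
  have hLpos : (0 : ℝ) < L := by
    rcases Nat.eq_zero_or_pos L with h0 | h0
    · rw [hl, h0] at hl2
      norm_num at hl2
    · exact_mod_cast h0
  have hA : 0 < (L : ℝ) ^ 2 := by positivity
  have hηA : 0 ≤ η * (L : ℝ) ^ 2 * l := by positivity
  have hyL : (L : ℝ) ^ 2 * l ≤ 2 * y := by linarith
  have hul : 2 * l ≤ u := by
    have e1 : (L : ℝ) ^ 2 ≤ y := by
      have := mul_le_mul_of_nonneg_left hl2 hA.le
      linarith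
    have e2 := Real.log_le_log hA e1
    rw [Real.log_pow] at e2
    push_cast at e2
    exact e2
  have h3 : (1 - η) ^ 3 * s ≤ L * l := by
    refine le_trans ?_ h2
    have e1 : Real.sqrt 2 * s ≤ Real.sqrt (2 * y * Real.log (2 * y)) := by
      rw [hs, ← Real.sqrt_mul (by norm_num), mul_assoc]
      refine Real.sqrt_le_sqrt (mul_le_mul_of_nonneg_left
        (mul_le_mul_of_nonneg_left ?_ (by linarith)) (by norm_num))
      exact Real.log_le_log (by linarith) (by linarith)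
    have e2 : 0 < Real.sqrt 2 := by positivity
    have e3 : 0 ≤ (1 - η) ^ 3 / Real.sqrt 2 := div_nonneg (pow_nonneg (by linarith) _) e2.le
    refine le_trans (le_of_eq ?_) (mul_le_mul_of_nonneg_left e1 e3)
    field_simp
  have h4 : L * l ≤ s := by
    refine Real.le_sqrt_of_sq_le ?_
    have e1 := mul_le_mul hyL hul (by linarith) (by linarith)
    linarith
  have h5 : y ≤ (L : ℝ) ^ 2 * l := by
    have e0 : (9 / 10 : ℝ) ^ 3 ≤ (1 - η) ^ 3 := pow_le_pow_left₀ (by norm_num) (by linarith) 3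
    have e1 : (9 / 10 : ℝ) ^ 3 * s ≤ L * l := (mul_le_mul_of_nonneg_right e0 hs0).trans h3
    have e2 := pow_le_pow_left₀ (by positivity) e1 2
    rw [mul_pow, hs2] at e2
    have e3 : y * (2 * l) ≤ y * u := mul_le_mul_of_nonneg_left hul (by linarith)
    have e4 : l * y ≤ l * ((L : ℝ) ^ 2 * l) := by
      have e5 : 0 ≤ y * l := by positivity
      linarith
    exact le_of_mul_le_mul_left e4 (by linarith)
  refine le_trans (Real.exp_le_exp.2 ?_) (hmain n hn h1 h5 φ Λ hφ hFL fun x y hxy => hFM x y ?_)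
  · have e1 := mul_le_mul_of_nonneg_left h3 (by linarith : 0 ≤ 1 - η)
    refine le_trans ?_ e1
    rw [← mul_assoc]
    refine mul_le_mul_of_nonneg_right ?_ hs0
    have e2 : 1 + (4 : ℕ) * (-η) ≤ (1 + -η) ^ 4 := one_add_mul_le_pow (by linarith) 4
    have e3 : (1 - η) * (1 - η) ^ 3 = (1 + -η) ^ 4 := by ring
    push_cast at e2
    linarith
  · refine le_trans (mul_le_mul_of_nonneg_left (Real.exp_le_exp.2 (neg_le_neg ?_))
      (Nat.cast_nonneg _)) hxy
    exact mul_le_mul (by linarith) h4 (by positivity) hε.le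

end Vale.Agent.N238S
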