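import Vale.Agent.N238S.Step

/-!
# N238S / Low : the lower bound with constant one in the exponent
-/

set_option autoImplicit false

namespace Vale.Agent.N238S

open Finset Filter Vale.Agent.P238 Vale.Agent.P238.Full

theorem half_card {h : ℕ} (A : Finset (Fin (h + h)))
    (hA : (∀ j ∈ A, (j : ℕ) < h) ∨ ∀ j ∈ A, ¬ (j : ℕ) < h) : 2 * A.card ≤ h + h := by
  have key : A.card ≤ (range h).card := by
    rcases hA with hA | hA
    · refine Finset.card_le_card_of_injOn (fun j => (j : ℕ)) (fun j hj => ?_) ?_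
      · exact Finset.mem_coe.2 (Finset.mem_range.2 (hA j hj))
      · intro i _ j _ hij
        exact Fin.ext hij
    · refine Finset.card_le_card_of_injOn (fun j => (j : ℕ) - h) (fun j hj => ?_) ?_
      · have h1 := hA j hj
        have h2 := j.2
        exact Finset.mem_coe.2 (Finset.mem_range.2 (by show (j : ℕ) - h < h; omega))
      · intro i hi j hj hij
        have h1 := hA i hi
        have h2 := hA j hj
        have h3 : (i : ℕ) - h = (j : ℕ) - h := hij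
        exact Fin.ext (by omega)
  rw [Finset.card_range] at key
  omega

/-- Data of every order `a * b` with small coprime factors. -/
def All (T : Finset ℕ) (B n : ℕ) (κ δ : ℝ) (q : ℕ) : Prop :=
  ∀ a b, 1 ≤ a → a ≤ B → 1 ≤ b → b ≤ B → Nat.Coprime a b →
    (T.filter (· ∣ a)).card ≤ 1 → (T.filter (· ∣ b)).card ≤ 1 → Nonempty (Data (a * b) n κ δ q)

theorem level_step {h P B w n q N W : ℕ} {κ δ : ℝ} {T : Finset ℕ} (hh : 2 ≤ h) (hP : 1 ≤ P)
    (hw : 1 ≤ w) (hT : ∀ t ∈ T, t.Prime ∧ P ≤ t ∧ t ≤ B) (hcard : h + h + 2 ≤ T.card)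
    (hn : 1 ≤ n) (hδ0 : 0 < δ) (hδ1 : δ ≤ 1) (hW : 1 ≤ W) (hNW : B ^ (2 * w) * W ≤ N)
    (hNP : N ≤ P ^ h) (ih : All T B n κ δ q) :
    All T B (N * (h + h) * n) (κ / w + 1 / W) (δ / 2) ((h + h) * q) := by
  classical
  intro a b ha haB hb hbB hab hTa hTb
  have hB : 1 ≤ B := ha.trans haB
  set S := B ^ (2 * w) with hSdef
  have hS1 : 1 ≤ S := Nat.one_le_pow _ _ hB
  have hN1 : 1 ≤ N := le_trans (Nat.mul_pos hS1 hW) hNW
  have hfree : h + h ≤ (T.filter (fun t => ¬ t ∣ a * b)).card := by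
    have h1 := Finset.card_filter_add_card_filter_not (s := T) (fun t => t ∣ a * b)
    have h2 : T.filter (fun t => t ∣ a * b) ⊆ T.filter (· ∣ a) ∪ T.filter (· ∣ b) := by
      intro t ht
      obtain ⟨ht1, ht2⟩ := Finset.mem_filter.1 ht
      rcases (Nat.Prime.dvd_mul (hT t ht1).1).1 ht2 with h3 | h3
      · exact Finset.mem_union_left _ (Finset.mem_filter.2 ⟨ht1, h3⟩)
      · exact Finset.mem_union_right _ (Finset.mem_filter.2 ⟨ht1, h3⟩)
    have h3 := (Finset.card_le_card h2).trans (Finset.card_union_le _ _)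
    omega
  obtain ⟨U, hU, hUc⟩ := Finset.exists_subset_card_eq hfree
  let p : Fin (h + h) → ℕ := fun j => U.orderEmbOfFin hUc j
  have hpinj : Function.Injective p := (U.orderEmbOfFin hUc).injective
  have hpU : ∀ j, p j ∈ T ∧ ¬ p j ∣ a * b := fun j =>
    Finset.mem_filter.1 (hU (U.orderEmbOfFin_mem hUc j))
  have hpp : ∀ j, (p j).Prime := fun j => (hT _ (hpU j).1).1
  have hpP : ∀ j, P ≤ p j := fun j => (hT _ (hpU j).1).2.1
  have hpB : ∀ j, p j ≤ B := fun j => (hT _ (hpU j).1).2.2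
  let g : Fin (h + h) → ℕ := fun j => if (j : ℕ) < h then a else b
  have hgcases : ∀ j, g j = a ∨ g j = b := by
    intro j
    simp only [g]
    split_ifs
    · exact Or.inl rfl
    · exact Or.inr rfl
  have hgQ : ∀ j, g j ∣ a * b := by
    intro j
    rcases hgcases j with h1 | h1 <;> rw [h1]
    · exact Dvd.intro _ rfl
    · exact Dvd.intro_left _ rfl
  have hg1 : ∀ j, 1 ≤ g j := fun j => by rcases hgcases j with h1 | h1 <;> rw [h1] <;> assumption
  have hgB : ∀ j, g j ≤ B := fun j => by rcases hgcases j with h1 | h1 <;> rw [h1] <;> assumption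
  have hgT : ∀ j, (T.filter (· ∣ g j)).card ≤ 1 := fun j => by
    rcases hgcases j with h1 | h1 <;> rw [h1] <;> assumption
  have hpg : ∀ i j, Nat.Coprime (p i) (g j) := fun i j =>
    (Nat.Prime.coprime_iff_not_dvd (hpp i)).2 fun h1 => (hpU i).2 (h1.trans (hgQ j))
  have hD : ∀ j : Fin (h + h), Nonempty (Data (g j * p j) n κ δ q) := by
    intro j
    refine ih (g j) (p j) (hg1 j) (hgB j) (hpp j).pos (hpB j) (hpg j j).symm (hgT j) ?_
    refine Finset.card_le_one.2 fun s hs t ht => ?_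
    obtain ⟨hs1, hs2⟩ := Finset.mem_filter.1 hs
    obtain ⟨ht1, ht2⟩ := Finset.mem_filter.1 ht
    rw [(Nat.prime_dvd_prime_iff_eq (hT s hs1).1 (hpp j)).1 hs2,
      (Nat.prime_dvd_prime_iff_eq (hT t ht1).1 (hpp j)).1 ht2]
  obtain ⟨D⟩ := step2 (Q := a * b) (n := n) (k := h + h) (N := N) (S := S) (w := w)
    (q := q) (κ := κ) (δ := δ) g p (by omega) hn hw hδ0 hδ1
    (fun j j' hjj => (Nat.coprime_primes (hpp j) (hpp j')).2 (fun h => hjj (hpinj h)))
    hpg (fun j => Nat.mul_pos (hg1 j) (hpp j).pos) hgQ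
    (by
      intro t ht A hA
      refine half_card A ?_
      by_contra hcon
      push Not at hcon
      obtain ⟨⟨j, hj, hj2⟩, ⟨j', hj', hj2'⟩⟩ := hcon
      have h1 := hA j hj
      have h2 := hA j' hj'
      simp only [g] at h1 h2
      rw [if_neg (by omega)] at h1
      rw [if_pos hj2'] at h2
      apply ht
      push_cast
      exact (Nat.isCoprime_iff_coprime.2 hab).mul_dvd h2 h1)
    (by
      intro A hA
      have h1 : ∏ j ∈ A, g j * p j ≤ (B * B) ^ A.card := by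
        apply Finset.prod_le_pow_card
        intro j _
        exact Nat.mul_le_mul (hgB j) (hpB j)
      have h2 : (B * B) ^ A.card ≤ (B * B) ^ w :=
        Nat.pow_le_pow_right (Nat.mul_pos hB hB) hA.le
      have h3 : (B * B) ^ w = S := by rw [hSdef, pow_mul, sq]
      exact h1.trans (h2.trans h3.le))
    (by
      intro A hA
      have h1 : P ^ A.card ≤ ∏ j ∈ A, p j := by
        rw [← Finset.prod_const]
        apply Finset.prod_le_prod'
        intro j _
        exact hpP j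
      have h2 : P ^ h ≤ P ^ A.card := Nat.pow_le_pow_right hP (by omega)
      exact hNP.trans (h2.trans h1))
    hN1 hD
  refine Data.relax ?_ D
  have hWpos : (0 : ℝ) < W := by exact_mod_cast hW
  have hNpos : (0 : ℝ) < N := by exact_mod_cast hN1
  have h1 : (S : ℝ) * W ≤ N := by exact_mod_cast hNW
  have h2 : (S : ℝ) / N ≤ 1 / W := by
    rw [div_le_div_iff₀ hNpos hWpos]
    linarith
  linarith

theorem kappa_succ (w i : ℕ) :
    ((i : ℝ) + 1) / (w : ℝ) ^ i / w + 1 / ((w ^ (i + 1) : ℕ) : ℝ) =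
      (((i + 1 : ℕ) : ℝ) + 1) / (w : ℝ) ^ (i + 1) := by
  rw [div_div, ← pow_succ]
  push_cast
  rw [add_div ((i : ℝ) + 1) 1]

theorem len_succ (S k w i : ℕ) : (S * k) ^ (i + 1) * w ^ ((i + 1 + 1).choose 2) =
    S * w ^ (i + 1) * k * ((S * k) ^ i * w ^ ((i + 1).choose 2)) := by
  have e0 : (i + 1 + 1).choose 2 = (i + 1) + (i + 1).choose 2 := by
    rw [Nat.choose_succ_succ' (i + 1) 1, Nat.choose_one_right]
  rw [e0]
  ring

theorem levels3 {L h P B w : ℕ} {T : Finset ℕ} (hh : 2 ≤ h) (hP : 1 ≤ P) (hB : 1 ≤ B) (hw : 1 ≤ w)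
    (hT : ∀ t ∈ T, t.Prime ∧ P ≤ t ∧ t ≤ B) (hcard : h + h + 2 ≤ T.card)
    (hPL : B ^ (2 * w) * w ^ L ≤ P ^ h) :
    ∀ i, i ≤ L → All T B ((B ^ (2 * w) * (h + h)) ^ i * w ^ ((i + 1).choose 2))
        (((i : ℝ) + 1) / (w : ℝ) ^ i) ((1 / 2 : ℝ) ^ i) ((h + h) ^ i * (B * B)) := by
  intro i
  induction i with
  | zero =>
    intro _ a b ha haB hb hbB _ _ _
    have h0 := Full.base (a * b) (Nat.mul_pos ha hb) (q := B * B) (Nat.mul_le_mul haB hbB)
    simpa using h0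
  | succ i ih =>
    intro hi
    have hS1 : 1 ≤ B ^ (2 * w) := Nat.one_le_pow _ _ hB
    have h0 := level_step (N := B ^ (2 * w) * w ^ (i + 1)) (W := w ^ (i + 1)) hh hP hw hT hcard
      (Nat.mul_pos (Nat.one_le_pow _ _ (Nat.mul_pos hS1 (by omega))) (Nat.one_le_pow _ _ hw))
      (by positivity) (pow_le_one₀ (by norm_num) (by norm_num)) (Nat.one_le_pow _ _ hw) le_rfl
      ((Nat.mul_le_mul_left _ (Nat.pow_le_pow_right hw hi)).trans hPL) (ih (by omega))
    have e2 : ((1 / 2 : ℝ)) ^ (i + 1) = (1 / 2 : ℝ) ^ i / 2 := by rw [pow_succ]; ring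
    have e3 : (h + h) ^ (i + 1) * (B * B) = (h + h) * ((h + h) ^ i * (B * B)) := by
      rw [pow_succ']; ring
    rw [len_succ, e2, e3, ← kappa_succ]
    exact h0

/-- Data whose length is adapted to `n`. -/
theorem data_fit {L w n : ℕ} (hL : 16 ≤ L) (hw : 1 ≤ w) (hwL : 4 * w ≤ L)
    (hB : Nat.nth Nat.Prime (24 * L) ≤ L ^ 2)
    (hn1 : L ^ 4 * ((14 * L ^ (4 * w + 1)) ^ L * w ^ ((L + 1).choose 2)) ≤ n)
    (hn2 : n < w ^ ((2 * L + 1).choose 2)) :
    ∃ i M q d : ℕ, L ≤ i ∧ i ≤ 2 * L ∧ q ≤ 2 ^ d ∧ 2 * d + 3 ≤ L ^ 4 ∧ L ^ 4 * M ≤ n ∧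
      n ≤ 2 * (L ^ 4 * M) ∧
      Nonempty (Data 2 M (((i : ℝ) + 1) / (w : ℝ) ^ i) ((1 / 2 : ℝ) ^ i) q) := by
  classical
  have hmono : StrictMono (Nat.nth Nat.Prime) := Nat.nth_strictMono Nat.infinite_setOfPred_prime
  have hprime : ∀ a, Nat.Prime (Nat.nth Nat.Prime a) := fun a =>
    Nat.nth_mem_of_infinite Nat.infinite_setOfPred_prime a
  have hge : ∀ a, a ≤ Nat.nth Nat.Prime a := fun a => hmono.le_apply
  set T : Finset ℕ := (Finset.Ico L (24 * L)).image (Nat.nth Nat.Prime) with hTdef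
  have hT : ∀ t ∈ T, t.Prime ∧ L ≤ t ∧ t ≤ L ^ 2 := by
    intro t ht
    obtain ⟨a, ha, rfl⟩ := Finset.mem_image.1 ht
    obtain ⟨h1, h2⟩ := Finset.mem_Ico.1 ha
    exact ⟨hprime a, h1.trans (hge a), (hmono.monotone h2.le).trans hB⟩
  have hcard : 7 * L + 7 * L + 2 ≤ T.card := by
    rw [hTdef, Finset.card_image_of_injective _ hmono.injective, Nat.card_Ico]
    omega
  have hL0 : 0 < L := by omega
  have hL2 : 16 * L ≤ L ^ 2 := by rw [sq]; exact Nat.mul_le_mul_right _ hL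
  set S := (L ^ 2) ^ (2 * w) with hS
  have hS1 : 1 ≤ S := Nat.one_le_pow _ _ (by omega)
  have hSL : S ≤ L ^ L := by
    rw [hS, ← pow_mul]
    exact Nat.pow_le_pow_right hL0 (by omega)
  have hwp : ∀ e e' : ℕ, e ≤ e' → w ^ e ≤ L ^ e' := fun e e' h =>
    (Nat.pow_le_pow_left (by omega) e).trans (Nat.pow_le_pow_right hL0 h)
  set k := 7 * L + 7 * L with hk
  set len : ℕ → ℕ := fun i => (S * k) ^ i * w ^ ((i + 1).choose 2) with hlen
  have hlen1 : ∀ i, 1 ≤ len i := fun i =>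
    Nat.mul_pos (Nat.one_le_pow _ _ (Nat.mul_pos hS1 (by omega))) (Nat.one_le_pow _ _ hw)
  have hlens : ∀ i, len (i + 1) = S * w ^ (i + 1) * k * len i := fun i => len_succ S k w i
  have hL4 : 1 ≤ L ^ 4 := Nat.one_le_pow _ _ hL0
  have hstart : L ^ 4 * len (L - 1 + 1) ≤ n := by
    rw [Nat.sub_add_cancel hL0]
    refine le_trans (le_of_eq ?_) hn1
    have e : S * k = 14 * L ^ (4 * w + 1) := by rw [hS, hk]; ring
    simp only [hlen, e]
  set i := Nat.findGreatest (fun i => L ^ 4 * len (i + 1) ≤ n) (2 * L - 1) with hi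
  have hi1 : i ≤ 2 * L - 1 := Nat.findGreatest_le _
  have hi2 : L - 1 ≤ i := Nat.le_findGreatest (by omega) hstart
  have hi3 : L ^ 4 * len (i + 1) ≤ n :=
    Nat.findGreatest_spec (P := fun i => L ^ 4 * len (i + 1) ≤ n) (by omega) hstart
  have hi4 : i + 1 ≤ 2 * L - 1 := by
    by_contra hcon
    have e : i + 1 = 2 * L := by omega
    rw [e] at hi3
    have h1 : w ^ ((2 * L + 1).choose 2) ≤ len (2 * L) :=
      Nat.le_mul_of_pos_left _ (Nat.one_le_pow _ _ (Nat.mul_pos hS1 (by omega)))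
    have h2 : len (2 * L) ≤ L ^ 4 * len (2 * L) := Nat.le_mul_of_pos_left _ hL4
    omega
  have hi5 : n < L ^ 4 * len (i + 1 + 1) :=
    not_le.1 (Nat.findGreatest_is_greatest (P := fun i => L ^ 4 * len (i + 1) ≤ n)
      (Nat.lt_succ_self i) hi4)
  set c := L ^ 4 * (k * len i) with hc
  have hc0 : 0 < c := Nat.mul_pos hL4 (Nat.mul_pos (by omega) (hlen1 i))
  set N := n / c with hN
  have hN1 : S * w ^ (i + 1) ≤ N := by
    rw [hN, Nat.le_div_iff_mul_le hc0]
    refine le_trans (le_of_eq ?_) hi3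
    rw [hlens, hc]; ring
  have hN2 : N ≤ L ^ (7 * L) := by
    have h1 : N ≤ S * w ^ (i + 1 + 1) * k * (S * w ^ (i + 1)) := by
      refine Nat.div_le_of_le_mul (hi5.le.trans (le_of_eq ?_))
      rw [hlens, hlens, hc]; ring
    refine h1.trans ?_
    calc S * w ^ (i + 1 + 1) * k * (S * w ^ (i + 1))
        ≤ L ^ L * L ^ (2 * L) * L ^ 2 * (L ^ L * L ^ (2 * L)) :=
          Nat.mul_le_mul (Nat.mul_le_mul (Nat.mul_le_mul hSL (hwp _ _ (by omega))) (by omega))
            (Nat.mul_le_mul hSL (hwp _ _ (by omega)))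
      _ = L ^ (6 * L + 2) := by ring
      _ ≤ L ^ (7 * L) := Nat.pow_le_pow_right hL0 (by omega)
  have hPL : S * w ^ (2 * L) ≤ L ^ (7 * L) := by
    calc S * w ^ (2 * L) ≤ L ^ L * L ^ (2 * L) := Nat.mul_le_mul hSL (hwp _ _ le_rfl)
      _ = L ^ (3 * L) := by ring
      _ ≤ L ^ (7 * L) := Nat.pow_le_pow_right hL0 (by omega)
  have hempty : ∀ c : ℕ, 1 ≤ c → c ≤ 2 → (T.filter (· ∣ c)).card ≤ 1 := by
    intro c hc1 hc2
    have : T.filter (· ∣ c) = ∅ := by
      rw [Finset.filter_eq_empty_iff]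
      intro t ht h
      have h1 := Nat.le_of_dvd hc1 h
      have h2 := (hT t ht).2.1
      omega
    rw [this]
    simp
  have hlev := levels3 (L := 2 * L) (h := 7 * L) (P := L) (B := L ^ 2) (w := w) (T := T)
    (by omega) hL0 (by omega) hw hT hcard hPL i (by omega)
  obtain ⟨D⟩ := level_step (N := N) (W := w ^ (i + 1)) (by omega) hL0 hw hT hcard (hlen1 i)
    (by positivity) (pow_le_one₀ (by norm_num) (by norm_num)) (Nat.one_le_pow _ _ hw) hN1 hN2 hlev
    2 1 (by norm_num) (by omega) le_rfl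
    (by omega) (by norm_num) (hempty 2 (by norm_num) le_rfl) (hempty 1 le_rfl (by norm_num))
  have hNpos : 1 ≤ N := le_trans (Nat.mul_pos hS1 (Nat.one_le_pow _ _ hw)) hN1
  have hM : L ^ 4 * (N * k * len i) = c * N := by rw [hc]; ring
  refine ⟨i + 1, N * k * len i, k * (k ^ i * (L ^ 2 * L ^ 2)), 28 * L * L + 4 * L, by omega,
    by omega, ?_, ?_, ?_, ?_, ?_⟩
  · have e : k = 14 * L := by omega
    calc k * (k ^ i * (L ^ 2 * L ^ 2)) = (14 * L) ^ (i + 1) * L ^ 4 := by rw [e]; ring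
      _ ≤ (14 * L) ^ (2 * L) * L ^ 4 :=
          Nat.mul_le_mul_right _ (Nat.pow_le_pow_right (by omega) (by omega))
      _ ≤ (2 ^ (14 * L)) ^ (2 * L) * (2 ^ L) ^ 4 :=
          Nat.mul_le_mul (Nat.pow_le_pow_left Nat.lt_two_pow_self.le _)
            (Nat.pow_le_pow_left Nat.lt_two_pow_self.le 4)
      _ = 2 ^ (28 * L * L + 4 * L) := by rw [← pow_mul, ← pow_mul, ← pow_add]; ring
  · have h2 : 256 * L ^ 2 ≤ L ^ 4 := by
      calc 256 * L ^ 2 = (16 * 16) * L ^ 2 := by norm_num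
        _ ≤ (L * L) * L ^ 2 := Nat.mul_le_mul_right _ (Nat.mul_le_mul hL hL)
        _ = L ^ 4 := by ring
    have h5 : 28 * L * L = 28 * L ^ 2 := by ring
    omega
  · rw [hM]
    exact Nat.mul_div_le n c
  · rw [hM]
    have h1 : n < c * (N + 1) := Nat.lt_mul_div_succ n hc0
    have h2 : c * (N + 1) ≤ c * (2 * N) := Nat.mul_le_mul_left _ (by omega)
    have h3 : c * (2 * N) = 2 * (c * N) := by ring
    omega
  · have e2 : ((1 / 2 : ℝ)) ^ (i + 1) = (1 / 2 : ℝ) ^ i / 2 := by rw [pow_succ]; ring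
    rw [e2, ← kappa_succ]
    exact ⟨D⟩

end Vale.Agent.N238S
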