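import Vale.Agent.N238.Main

/-!
# N238S / Step : the composition step without accumulation of the orders
-/

set_option autoImplicit false

namespace Vale.Agent.N238S

open Finset Vale.Agent.P238 Vale.Agent.P238.Full

section step

variable {n k q : ℕ} {κ δ : ℝ} {m : Fin k → ℕ} (D : ∀ j, Data (1 * m j) n κ δ q)

theorem stepK {w S : ℕ} (hw : 1 ≤ w) (hm1 : ∀ j, 1 ≤ m j)
    (hS : ∀ A : Finset (Fin k), A.card < w → ∏ j ∈ A, m j ≤ S)
    (χ : AddChar (∀ j, (D j).G) ℂ) (hz : χ (su D) ≠ 1) :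
    1 ≤ ∑ b, sw D w S b * ‖1 - χ (sg D S b)‖ ^ 2 := by
  classical
  have hw0 : (0 : ℝ) < w := by exact_mod_cast hw
  obtain ⟨A, hA⟩ : ∃ A : Finset (Fin k), A =
    Finset.univ.filter (fun j => χ (Pi.single j (D j).v) ≠ 1) := ⟨_, rfl⟩
  rw [Fintype.sum_sum_type]
  have hnn1 : 0 ≤ ∑ b : (Σ j, (D j).A), sw D w S (Sum.inl b) * ‖1 - χ (sg D S (Sum.inl b))‖ ^ 2 :=
    Finset.sum_nonneg fun b _ => mul_nonneg (sw_nonneg D w S _) (sq_nonneg _)
  have hnn2 : 0 ≤ ∑ b : Fin S, sw D w S (Sum.inr b) * ‖1 - χ (sg D S (Sum.inr b))‖ ^ 2 :=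
    Finset.sum_nonneg fun b _ => mul_nonneg (sw_nonneg D w S _) (sq_nonneg _)
  by_cases hcard : w ≤ A.card
  · have h1 : 1 ≤ ∑ b : (Σ j, (D j).A), sw D w S (Sum.inl b) *
        ‖1 - χ (sg D S (Sum.inl b))‖ ^ 2 := by
      rw [Fintype.sum_sigma]
      have h2 : ∀ j ∈ A, (1 : ℝ) / w ≤ ∑ a : (D j).A, sw D w S (Sum.inl ⟨j, a⟩) *
          ‖1 - χ (sg D S (Sum.inl ⟨j, a⟩))‖ ^ 2 := by
        intro j hj
        rw [hA, Finset.mem_filter] at hj
        have h3 := (D j).hK (χ.compAddMonoidHom (AddMonoidHom.single (fun j => (D j).G) j))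
          (by simpa only [AddChar.compAddMonoidHom_apply, AddMonoidHom.single_apply, ne_eq]
            using hj.2)
        simp only [AddChar.compAddMonoidHom_apply, AddMonoidHom.single_apply] at h3
        have h4 : ∑ a : (D j).A, sw D w S (Sum.inl ⟨j, a⟩) *
          ‖1 - χ (sg D S (Sum.inl ⟨j, a⟩))‖ ^ 2 = (∑ a : (D j).A, (D j).w a *
          ‖1 - χ (Pi.single j ((D j).g a))‖ ^ 2) / w := by
          rw [Finset.sum_div]
          apply Finset.sum_congr rfl
          intro a _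
          simp only [sw, sg, Sum.elim_inl]
          ring
        rw [h4]
        exact div_le_div_of_nonneg_right h3 hw0.le
      calc (1 : ℝ) ≤ A.card * (1 / w) := by
            rw [mul_one_div, le_div_iff₀ hw0, one_mul]
            exact_mod_cast hcard
        _ = ∑ j ∈ A, (1 : ℝ) / w := by simp only [one_div, Finset.sum_const, nsmul_eq_mul]
        _ ≤ ∑ j ∈ A, ∑ a : (D j).A, sw D w S (Sum.inl ⟨j, a⟩) *
          ‖1 - χ (sg D S (Sum.inl ⟨j, a⟩))‖ ^ 2 := Finset.sum_le_sum h2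
        _ ≤ _ := by
            apply Finset.sum_le_sum_of_subset_of_nonneg (Finset.subset_univ _)
            intro j _ _
            exact Finset.sum_nonneg fun a _ => mul_nonneg (sw_nonneg D w S _) (sq_nonneg _)
    linarith only [hnn2, h1]
  · have hm := hS A (by omega)
    have hzm : χ (su D) ^ (∏ j ∈ A, m j) = 1 := by
      rw [chi_su]
      have h1 : ∏ j, χ (Pi.single j (D j).v) = ∏ j ∈ A, χ (Pi.single j (D j).v) := by
        symm
        apply Finset.prod_subset (Finset.subset_univ _)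
        intro j _ hj
        by_contra h
        apply hj
        rw [hA, Finset.mem_filter]
        exact ⟨Finset.mem_univ _, h⟩
      rw [h1, ← Finset.prod_pow]
      apply Finset.prod_eq_one
      intro j hj
      obtain ⟨c, hc⟩ := Finset.dvd_prod_of_mem m hj
      have h2 : χ (Pi.single j (D j).v) ^ (1 * m j) = 1 := by
        rw [← AddChar.map_nsmul_eq_pow, ← Pi.single_smul, (D j).hv, Pi.single_zero,
          AddChar.map_zero_eq_one]
      have hc2 : ∏ i ∈ A, m i = 1 * m j * c := by rw [hc, one_mul]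
      rw [hc2, pow_mul, h2, one_pow]
    have hpos0 : 0 < ∏ j ∈ A, m j := Finset.prod_pos fun j _ => hm1 j
    have hpos : 1 ≤ ∏ j ∈ A, m j := hpos0
    have h1 := sum_norm_ge hz hzm hpos hm
    have hS0 : (0 : ℝ) < S := by
      have : 0 < S := by omega
      exact_mod_cast this
    have h2 : ∑ b : Fin S, sw D w S (Sum.inr b) * ‖1 - χ (sg D S (Sum.inr b))‖ ^ 2 =
        (1 / S) * ∑ s ∈ Finset.range S, ‖1 - χ (su D) ^ s‖ ^ 2 := by
      rw [Finset.mul_sum,
        ← Fin.sum_univ_eq_sum_range (fun s => (1 / (S : ℝ)) * ‖1 - χ (su D) ^ s‖ ^ 2)]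
      apply Finset.sum_congr rfl
      intro s _
      simp only [sw, sg, Sum.elim_inr]
      rw [natCast_zsmul, AddChar.map_nsmul_eq_pow]
    have h3 : 1 ≤ ∑ b : Fin S, sw D w S (Sum.inr b) * ‖1 - χ (sg D S (Sum.inr b))‖ ^ 2 := by
      rw [h2, one_div, ← div_eq_inv_mul, le_div_iff₀ hS0, one_mul]
      exact h1
    linarith only [hnn1, h3]

theorem stepF {N Q : ℕ} {g p : Fin k → ℕ} (hm : ∀ j, m j = g j * p j) (hk : 4 ≤ k) (hn : 1 ≤ n)
    (hδ0 : 0 < δ) (hδ1 : δ ≤ 1)
    (hp : ∀ i j, i ≠ j → Nat.Coprime (p i) (p j)) (hpg : ∀ i j, Nat.Coprime (p i) (g j))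
    (hg : ∀ t : ℤ, ¬ (Q : ℤ) ∣ t → ∀ A : Finset (Fin k), (∀ j ∈ A, (g j : ℤ) ∣ t) →
      2 * A.card ≤ k)
    (hN : ∀ A : Finset (Fin k), k < 2 * A.card → N ≤ ∏ j ∈ A, p j) (x : ∀ j, (D j).G) (t : ℤ)
    (ht : ¬ (Q : ℤ) ∣ t) (a l : ℕ) (hal : a + l ≤ N * (k * n)) :
    δ / 2 * ((N * (k * n) : ℕ) : ℝ) ≤
      (ED (win (sX D x) 0 (N * (k * n)))
        (win (sX D (x + t • ((∏ j, p j) • su D))) a l) : ℝ) := by
  obtain ⟨x', hx'⟩ : ∃ x', x' = x + t • ((∏ j, p j) • su D) := ⟨_, rfl⟩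
  rw [← hx']
  obtain ⟨b, hb0, hbN, hmono, hbd, hsum⟩ := ED_win_split (sX D x) (sX D x') (k * n) N 0 a l
  have hrow : ∀ r ∈ Finset.range N, (k : ℝ) / 2 * δ * n ≤
      (ED (win (sX D x) (0 + r * (k * n)) (k * n))
        (win (sX D x') (b r) (b (r + 1) - b r)) : ℝ) := by
    intro r hr
    rw [Finset.mem_range] at hr
    have h := row_lemma k n hk hn δ hδ0 hδ1 (fun u => sX D x (r * (k * n) + u)) (sX D x')
      (fun j i => ent D x j r i) (fun ρ j i => ent D x' j ρ i)
      (by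
        intro j hj i hi
        have e : r * (k * n) + (j * n + i) = (r * k + j) * n + i := by ring
        simp only [e]
        exact sX_block D x r hj hi)
      (by
        intro ρ j hj i hi
        exact sX_block D x' ρ hj hi)
      (fun j ρ => ∃ h : j < k, ¬ ((1 * m ⟨j, h⟩ : ℕ) : ℤ) ∣
        ((ρ : ℤ) - r + t * ((∏ j, p j : ℕ) : ℤ)))
      (by
        rintro j hj ρ ⟨h, hbad⟩ a l hal
        have h1 := (D ⟨j, h⟩).hF (x ⟨j, h⟩ + (r : ℤ) • (D ⟨j, h⟩).v) _ hbad a l hal
        have h2 : ent D x j (r : ℤ) = (D ⟨j, h⟩).X (x ⟨j, h⟩ + (r : ℤ) • (D ⟨j, h⟩).v) := by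
          funext i
          exact ent_of_lt D x ⟨j, h⟩ r i
        have h3 : ent D x' j (ρ : ℤ) = (D ⟨j, h⟩).X (x ⟨j, h⟩ + (r : ℤ) • (D ⟨j, h⟩).v +
            ((ρ : ℤ) - r + t * ((∏ j, p j : ℕ) : ℤ)) • (D ⟨j, h⟩).v) := by
          funext i
          rw [show ent D x' j (ρ : ℤ) i = ent D x' (⟨j, h⟩ : Fin k) (ρ : ℤ) i from rfl,
            ent_of_lt D x' ⟨j, h⟩ ρ i, hx']
          congr 1
          simp only [Pi.add_apply, Pi.smul_apply, su]
          rw [add_smul, sub_smul, mul_smul, natCast_zsmul (D ⟨j, h⟩).v (∏ j, p j)]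
          abel
        rw [h2, h3]
        exact h1)
      (b r) (b (r + 1) - b r)
    rw [win_shift, add_comm (r * (k * n)) 0] at h
    rcases h with h | ⟨ρ, hρ, J, hJk, hJc, hJ⟩
    · exact h
    · exfalso
      have h1 := hmono r hr
      have h2 := hbd (r + 1) (by omega)
      have hρN : ρ < N := by
        have h3 : ρ * (k * n) < N * (k * n) := by
          rw [← mul_assoc]
          omega
        exact lt_of_mul_lt_mul_right h3 (by omega)
      obtain ⟨A, hA⟩ : ∃ A : Finset (Fin k),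
          A = Finset.univ.filter (fun j : Fin k => (j : ℕ) ∈ J) := ⟨_, rfl⟩
      have hAJ : A.map Fin.valEmbedding = J := by
        ext j
        rw [Finset.mem_map, hA]
        constructor
        · rintro ⟨i, hi, rfl⟩
          exact (Finset.mem_filter.1 hi).2
        · intro hj
          exact ⟨⟨j, Finset.mem_range.1 (hJk hj)⟩, by
            simpa only [Finset.mem_filter, Finset.mem_univ, true_and] using hj, rfl⟩
      have hcard : A.card = J.card := by
        rw [← hAJ, Finset.card_map]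
      have hdvd : ∀ j ∈ A, ((g j * p j : ℕ) : ℤ) ∣
          ((ρ : ℤ) - r + t * ((∏ j, p j : ℕ) : ℤ)) := by
        intro j hj
        rw [hA, Finset.mem_filter] at hj
        have h3 := hJ _ hj.2
        by_contra h4
        refine h3 ⟨j.2, ?_⟩
        rw [one_mul, hm]
        exact h4
      have hdvd2 : ∀ j ∈ A, ((p j : ℕ) : ℤ) ∣ ((ρ : ℤ) - r) := by
        intro j hj
        have h3 : ((p j : ℕ) : ℤ) ∣ t * ((∏ j, p j : ℕ) : ℤ) :=
          Dvd.dvd.mul_left (Int.natCast_dvd_natCast.2 (Finset.dvd_prod_of_mem p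
            (Finset.mem_univ j))) t
        have h4 : ((p j : ℕ) : ℤ) ∣ ((ρ : ℤ) - r + t * ((∏ j, p j : ℕ) : ℤ)) :=
          (Int.natCast_dvd_natCast.2 (Dvd.intro_left (g j) rfl)).trans (hdvd j hj)
        exact (dvd_add_left h3).1 h4
      have hprod : ((∏ j ∈ A, p j : ℕ) : ℤ) ∣ ((ρ : ℤ) - r) := by
        push_cast
        apply Finset.prod_dvd_of_coprime
        · intro i _ j _ hij
          exact Nat.isCoprime_iff_coprime.2 (hp i j hij)
        · exact hdvd2
      have hNA := hN A (by omega)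
      have hs : (ρ : ℤ) - r = 0 := by
        apply Int.eq_zero_of_abs_lt_dvd hprod
        rw [abs_lt]
        have h5 : (N : ℤ) ≤ ((∏ j ∈ A, p j : ℕ) : ℤ) := by exact_mod_cast hNA
        constructor <;> omega
      have h9 := hg t ht A (by
        intro j hj
        have h6 := hdvd j hj
        rw [hs, zero_add] at h6
        have h7 : (g j : ℤ) ∣ t * ((∏ j, p j : ℕ) : ℤ) :=
          (Int.natCast_dvd_natCast.2 (Dvd.intro _ rfl)).trans h6
        have h8 : IsCoprime (g j : ℤ) ((∏ j, p j : ℕ) : ℤ) := by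
          rw [Nat.isCoprime_iff_coprime]
          exact Nat.Coprime.prod_right fun i _ => (hpg i j).symm
        exact h8.dvd_of_dvd_mul_right h7)
      omega
  have h1 : ∑ r ∈ Finset.range N, ((k : ℝ) / 2 * δ * n) ≤
      ∑ r ∈ Finset.range N, (ED (win (sX D x) (0 + r * (k * n)) (k * n))
        (win (sX D x') (b r) (b (r + 1) - b r)) : ℝ) := Finset.sum_le_sum hrow
  have h2 : ∑ r ∈ Finset.range N, (ED (win (sX D x) (0 + r * (k * n)) (k * n))
        (win (sX D x') (b r) (b (r + 1) - b r)) : ℝ) ≤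
      (ED (win (sX D x) 0 (N * (k * n))) (win (sX D x') a l) : ℝ) := by
    exact_mod_cast hsum
  refine le_trans (le_of_eq ?_) (h1.trans h2)
  rw [Finset.sum_const, Finset.card_range, nsmul_eq_mul]
  push_cast
  ring

end step

/-- The composition step: column `j` carries data of order `g j * p j` with `g j ∣ Q`. -/
theorem step2 {Q n k N S w q : ℕ} {κ δ : ℝ} (g p : Fin k → ℕ) (hk : 4 ≤ k) (hn : 1 ≤ n)
    (hw : 1 ≤ w) (hδ0 : 0 < δ) (hδ1 : δ ≤ 1)
    (hp : ∀ i j, i ≠ j → Nat.Coprime (p i) (p j)) (hpg : ∀ i j, Nat.Coprime (p i) (g j))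
    (hm1 : ∀ j, 1 ≤ g j * p j) (hgQ : ∀ j, g j ∣ Q)
    (hg : ∀ t : ℤ, ¬ (Q : ℤ) ∣ t → ∀ A : Finset (Fin k), (∀ j ∈ A, (g j : ℤ) ∣ t) →
      2 * A.card ≤ k)
    (hS : ∀ A : Finset (Fin k), A.card < w → ∏ j ∈ A, g j * p j ≤ S)
    (hN : ∀ A : Finset (Fin k), k < 2 * A.card → N ≤ ∏ j ∈ A, p j) (hN1 : 1 ≤ N)
    (D : ∀ j, Nonempty (Data (g j * p j) n κ δ q)) :
    Nonempty (Data Q (N * k * n) (κ / w + S / N) (δ / 2) (k * q)) := by
  classical
  obtain ⟨D⟩ : Nonempty (∀ j, Data (1 * (fun j => g j * p j) j) n κ δ q) :=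
    ⟨fun j => Classical.choice (by rw [one_mul]; exact D j)⟩
  have e : N * k * n = N * (k * n) := by ring
  rw [e]
  exact ⟨{
    G := ∀ j, (D j).G
    grp := inferInstance
    fin := inferInstance
    v := (∏ j, p j) • su D
    X := sX D
    A := (Σ j, (D j).A) ⊕ Fin S
    finA := inferInstance
    g := sg D S
    w := sw D w S
    d := sd D N S
    hv := by
      funext j
      obtain ⟨c, hc⟩ := Finset.dvd_prod_of_mem p (Finset.mem_univ j)
      obtain ⟨c', hc'⟩ := hgQ j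
      simp only [Pi.smul_apply, su, Pi.zero_apply]
      have e2 : Q * ∏ j, p j = (c' * c) * (1 * (g j * p j)) := by rw [hc, hc']; ring
      rw [← mul_smul, e2, mul_smul, (D j).hv, smul_zero]
    hX := fun x u => sX_lt D x (by omega) u
    hw := sw_nonneg D w S
    hd := sd_nonneg D N S
    hK := fun χ hχ => stepK D hw hm1 hS χ (by
      intro h
      apply hχ
      rw [AddChar.map_nsmul_eq_pow, h, one_pow])
    hC := by
      intro b x
      rcases b with ⟨j, a⟩ | s
      · simp only [sg, sd, Sum.elim_inl]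
        exact ED_single_le D x N j a
      · simp only [sg, sd, Sum.elim_inr]
        have h := ED_diag_le D (by omega) (by omega) x (N * (k * n)) s
        have h2 : (ED (win (sX D x) 0 (N * (k * n)))
            (win (sX D (x + ((s : ℕ) : ℤ) • su D)) 0 (N * (k * n))) : ℝ) ≤
            ((2 * ((s : ℕ) * (k * n)) : ℕ) : ℝ) := by
          exact_mod_cast h
        refine h2.trans (le_of_eq ?_)
        push_cast
        ring
    hD := step_D D hw hN1
    hF := fun x t ht a l hal =>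
      stepF D (fun _ => rfl) hk hn hδ0 hδ1 hp hpg hg hN x t ht a l hal }⟩

end Vale.Agent.N238S
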